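import Vale.Agent.P104.WStar
import Vale.Agent.P104.Trace

/-! Definitions for the cohomology of von Neumann algebras. -/

set_option linter.unusedSectionVars false

namespace Vale.Agent.P082

open Filter Topology Finset Vale.Agent.P104
open scoped InnerProductSpace ComplexOrder

universe u v

/-! ### Averages over finite types -/

section Ex

variable {Ω Ω' : Type*} [Fintype Ω] [Fintype Ω'] {V W : Type*} [AddCommGroup V] [Module ℝ V]
  [AddCommGroup W] [Module ℝ W]

/-- The average over a finite type. -/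
noncomputable def Ex (f : Ω → V) : V := (Fintype.card Ω : ℝ)⁻¹ • ∑ ω, f ω

theorem Ex_add (f g : Ω → V) : Ex (fun ω => f ω + g ω) = Ex f + Ex g := by
  simp [Ex, sum_add_distrib]

theorem Ex_sub (f g : Ω → V) : Ex (fun ω => f ω - g ω) = Ex f - Ex g := by
  simp [Ex, sum_sub_distrib, smul_sub]

theorem Ex_sum {ι : Type*} (s : Finset ι) (f : ι → Ω → V) :
    Ex (fun ω => ∑ i ∈ s, f i ω) = ∑ i ∈ s, Ex (f i) := by
  simp only [Ex]
  rw [sum_comm, smul_sum]

theorem Ex_const [Nonempty Ω] (x : V) : Ex (fun _ : Ω => x) = x := by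
  have : (Fintype.card Ω : ℝ) ≠ 0 := by exact_mod_cast Fintype.card_ne_zero
  rw [Ex, sum_const, card_univ, ← Nat.cast_smul_eq_nsmul ℝ, smul_smul, inv_mul_cancel₀ this,
    one_smul]

theorem map_Ex (L : V →ₗ[ℝ] W) (f : Ω → V) : L (Ex f) = Ex fun ω => L (f ω) := by
  simp [Ex]

theorem Ex_equiv (e : Ω' ≃ Ω) (f : Ω → V) : Ex (fun ω => f (e ω)) = Ex f := by
  rw [Ex, Ex, Fintype.card_congr e, e.sum_comp]

theorem Ex_comm (f : Ω → Ω' → V) :
    Ex (fun ω => Ex fun ω' => f ω ω') = Ex fun ω' => Ex fun ω => f ω ω' := by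
  simp only [Ex, ← smul_sum]
  rw [smul_comm, sum_comm]

theorem Ex_mono {f g : Ω → ℝ} (h : ∀ ω, f ω ≤ g ω) : Ex f ≤ Ex g :=
  smul_le_smul_of_nonneg_left (sum_le_sum fun ω _ => h ω) (by positivity)

theorem Ex_le [Nonempty Ω] {f : Ω → ℝ} {c : ℝ} (h : ∀ ω, f ω ≤ c) : Ex f ≤ c :=
  (Ex_mono h).trans_eq (Ex_const c)

theorem Ex_mul_left (c : ℝ) (f : Ω → ℝ) : Ex (fun ω => c * f ω) = c * Ex f := by
  simp only [Ex, smul_eq_mul, ← mul_sum]; ring

theorem Ex_div (c : ℝ) (f : Ω → ℝ) : Ex (fun ω => f ω / c) = Ex f / c := by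
  simp only [Ex, smul_eq_mul, ← sum_div]; ring

theorem norm_Ex_le {V : Type*} [SeminormedAddCommGroup V] [NormedSpace ℝ V] (f : Ω → V) :
    ‖Ex f‖ ≤ Ex fun ω => ‖f ω‖ := by
  rw [Ex, Ex, norm_smul, Real.norm_of_nonneg (by positivity), smul_eq_mul]
  exact mul_le_mul_of_nonneg_left (norm_sum_le _ _) (by positivity)

/-- Resampling one coordinate. -/
theorem Ex_update {σ : Type*} [Fintype σ] [DecidableEq σ] [Nonempty Ω] (l : σ) (f : (σ → Ω) → V) :
    Ex f = Ex fun ϖ => Ex fun α => f (Function.update ϖ l α) := by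
  let e : (σ → Ω) × Ω ≃ (σ → Ω) × Ω :=
    Function.Involutive.toPerm (fun x => (Function.update x.1 l x.2, x.1 l)) fun x => by simp
  have h1 : ∀ g : (σ → Ω) × Ω → V, Ex (fun ϖ => Ex fun α => g (ϖ, α)) = Ex g := fun g => by
    simp only [Ex, ← smul_sum, smul_smul, Fintype.card_prod, Fintype.sum_prod_type, Nat.cast_mul,
      mul_inv]
  rw [h1 fun x => f (Function.update x.1 l x.2)]
  have := Ex_equiv e fun x => f x.1
  rw [← h1 fun x => f x.1] at this
  simp only [Ex_const] at this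
  exact this.symm

variable {A : Type u} [CStarAlgebra A]

theorem mul_Ex (a : A) (f : Ω → A) : a * Ex f = Ex fun ω => a * f ω := by
  simp [Ex, mul_sum]

theorem Ex_mul (f : Ω → A) (a : A) : Ex f * a = Ex fun ω => f ω * a := by
  simp [Ex, sum_mul]

theorem map_Ex' {B : Type*} [AddCommGroup B] [Module ℂ B] [Module ℝ B] [IsScalarTower ℝ ℂ B]
    (L : A →ₗ[ℂ] B) (f : Ω → A) : L (Ex f) = Ex fun ω => L (f ω) :=
  map_Ex (L.restrictScalars ℝ) f

theorem n2_Ex_le [Tr A] (f : Ω → A) : n2 (Ex f) ≤ Ex fun ω => n2 (f ω) := by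
  rw [Ex, Ex, n2_rsmul, abs_of_nonneg (by positivity), smul_eq_mul]
  exact mul_le_mul_of_nonneg_left (n2_sum_le _ _) (by positivity)

end Ex

/-! ### Partitions and averaging operators -/

section Parts

variable {A : Type u} [CStarAlgebra A] {ι κ : Type} [Fintype ι] [Fintype κ]

/-- A partition of the unit. -/
structure IsPart (e : ι → A) : Prop where
  proj : ∀ i, IsStarProjection (e i)
  orth : ∀ i j, i ≠ j → e i * e j = 0
  sum : ∑ i, e i = 1

theorem IsPart.star_eq {e : ι → A} (h : IsPart e) (i : ι) : star (e i) = e i :=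
  (h.proj i).isSelfAdjoint.star_eq

theorem IsPart.idem {e : ι → A} (h : IsPart e) (i : ι) : e i * e i = e i :=
  (h.proj i).isIdempotentElem.eq

theorem IsPart.norm_le {e : ι → A} (h : IsPart e) (i : ι) : ‖e i‖ ≤ 1 := (h.proj i).norm_le

theorem IsPart.mul_ite [DecidableEq ι] {e : ι → A} (h : IsPart e) (i j : ι) :
    e i * e j = if i = j then e i else 0 := by
  split_ifs with hij
  · rw [← hij, h.idem]
  · exact h.orth i j hij

theorem IsPart.sum_star_mul {e : ι → A} (h : IsPart e) : ∑ i, star (e i) * e i = 1 := by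
  simp only [h.star_eq, h.idem, h.sum]

theorem IsPart.conj {e : ι → A} (h : IsPart e) {u : A} (hu : u ∈ unitary A) :
    IsPart fun i => star u * e i * u := by
  have k : ∀ i j, star u * e i * u * (star u * e j * u) = star u * (e i * e j) * u := fun i j => by
    calc _ = star u * e i * (u * star u) * e j * u := by simp only [mul_assoc]
      _ = _ := by rw [hu.2]; simp only [mul_one, mul_assoc]
  refine ⟨fun i => isStarProjection_iff'.2 ⟨by rw [k, h.idem], ?_⟩, fun i j hij => ?_, ?_⟩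
  · simp [h.star_eq, mul_assoc]
  · rw [k, h.orth i j hij]; simp
  · rw [← sum_mul, ← mul_sum, h.sum, mul_one, hu.1]

theorem part_bool {q : A} (hq : IsStarProjection q) : IsPart fun b : Bool => cond b q (1 - q) := by
  refine ⟨?_, ?_, by simp⟩
  · rintro (_ | _)
    exacts [hq.one_sub, hq]
  · rintro (_ | _) (_ | _) h
    · exact absurd rfl h
    · exact hq.one_sub_mul_self
    · exact hq.mul_one_sub_self
    · exact absurd rfl h

/-- Refinement of partitions. -/
def Ref (e' : κ → A) (e : ι → A) : Prop := ∀ j, ∃ i, e i * e' j = e' j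

/-- The averaging operator of a finite family. -/
noncomputable def avg (m : ι → A) (φ : A →ₗ[ℂ] A) : A →ₗ[ℂ] A :=
  ∑ i, LinearMap.mulLeft ℂ (star (m i)) ∘ₗ φ ∘ₗ LinearMap.mulLeft ℂ (m i)

theorem avg_apply (m : ι → A) (φ : A →ₗ[ℂ] A) (a : A) :
    avg m φ a = ∑ i, star (m i) * φ (m i * a) := by
  simp [avg, LinearMap.sum_apply]

theorem IsPart.avg_apply {e : ι → A} (h : IsPart e) (φ : A →ₗ[ℂ] A) (a : A) :
    avg e φ a = ∑ i, e i * φ (e i * a) := by
  simp only [P082.avg_apply, h.star_eq]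

theorem avg_add (m : ι → A) (φ ψ : A →ₗ[ℂ] A) : avg m (φ + ψ) = avg m φ + avg m ψ := by
  ext a; simp [avg_apply, mul_add, sum_add_distrib]

theorem avg_sub (m : ι → A) (φ ψ : A →ₗ[ℂ] A) : avg m (φ - ψ) = avg m φ - avg m ψ := by
  ext a; simp [avg_apply, mul_sub, sum_sub_distrib]

theorem avg_smul (m : ι → A) (c : ℂ) (φ : A →ₗ[ℂ] A) : avg m (c • φ) = c • avg m φ := by
  ext a; simp [avg_apply, smul_sum]

theorem avg_rsmul (m : ι → A) (c : ℝ) (φ : A →ₗ[ℂ] A) : avg m (c • φ) = c • avg m φ := by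
  ext a; simp [avg_apply, smul_sum]

/-- Left modularity for a family. -/
def Mod (e : ι → A) (φ : A →ₗ[ℂ] A) : Prop := ∀ i a, φ (e i * a) = e i * φ a

theorem IsPart.mod_avg {e : ι → A} (h : IsPart e) (φ : A →ₗ[ℂ] A) : Mod e (avg e φ) := by
  classical
  intro i a
  simp only [h.avg_apply, mul_sum, ← mul_assoc, h.mul_ite]
  refine sum_congr rfl fun j _ => ?_
  by_cases hij : i = j
  · subst hij; simp
  · simp [hij, Ne.symm hij]

theorem Mod.avg_eq {e : ι → A} (h : IsPart e) {φ : A →ₗ[ℂ] A} (hφ : Mod e φ) : avg e φ = φ := by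
  ext a
  simp only [h.avg_apply, hφ _ a, ← mul_assoc, h.idem, ← sum_mul, h.sum, one_mul]

/-- Averaging along a word of colours; the head of the word acts first. -/
noncomputable def avgW {C : Type} (e : C → ι → A) (w : List C) (φ : A →ₗ[ℂ] A) : A →ₗ[ℂ] A :=
  w.foldl (fun ψ j => avg (e j) ψ) φ

theorem avgW_nil {C : Type} (e : C → ι → A) (φ : A →ₗ[ℂ] A) : avgW e [] φ = φ := rfl

theorem avgW_cons {C : Type} (e : C → ι → A) (j : C) (w : List C) (φ : A →ₗ[ℂ] A) :
    avgW e (j :: w) φ = avgW e w (avg (e j) φ) := rfl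

theorem avgW_append {C : Type} (e : C → ι → A) (w w' : List C) (φ : A →ₗ[ℂ] A) :
    avgW e (w ++ w') φ = avgW e w' (avgW e w φ) := List.foldl_append

/-- Phases. -/
noncomputable def ph {p : ℕ} [NeZero p] (a : ZMod p) : ℂ := ZMod.stdAddChar a

/-- The unitary with given phases on a partition. -/
noncomputable def Lam {p : ℕ} [NeZero p] (e : ι → A) (α : ι → ZMod p) : A := ∑ i, ph (α i) • e i

/-- A product of phase unitaries, with one independent family of phases per slot. -/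
noncomputable def pr {p : ℕ} [NeZero p] {σ C : Type} (e : C → ι → A) (c : σ → C) (L : List σ)
    (ϖ : σ → ι → ZMod p) : A := (L.map fun l => Lam (e (c l)) (ϖ l)).prod

variable [Tr A]

/-- Contractions for both norms. -/
structure BB (φ : A →ₗ[ℂ] A) : Prop where
  b1 : ∀ a, ‖φ a‖ ≤ ‖a‖
  b2 : ∀ a, n2 (φ a) ≤ n2 a

/-- The overlap of two partitions. -/
noncomputable def mix (e : ι → A) (f : κ → A) : ℝ := ∑ i, ∑ j, n2 (f j * e i * f j) ^ 2

/-- Up to null elements every projection has two anticommuting symmetries below it. -/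
def Halv (A : Type u) [CStarAlgebra A] [Tr A] : Prop :=
  ∀ e : A, IsStarProjection e → ∃ X Y : A, star X = X ∧ star Y = Y ∧ e * X = X ∧ e * Y = Y ∧
    X * X = e ∧ Y * Y = e ∧ n2 (X * Y + Y * X) = 0

end Parts

/-! ### Weakly closed representations -/

section VN

variable {G : Type v} [NormedAddCommGroup G] [InnerProductSpace ℂ G] [CompleteSpace G]
  {M : Type u} [CStarAlgebra M]

/-- Weak operator convergence. -/
def WL (ρ : M →⋆ₐ[ℂ] (G →L[ℂ] G)) {ι : Type*} (l : Filter ι) (a : ι → M) (x : M) : Prop :=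
  ∀ ξ η, Tendsto (fun i => ⟪ξ, ρ (a i) η⟫_ℂ) l (𝓝 ⟪ξ, ρ x η⟫_ℂ)

/-- A faithful representation with weakly compact balls. -/
structure IsVN (ρ : M →⋆ₐ[ℂ] (G →L[ℂ] G)) : Prop where
  inj : Function.Injective ρ
  lim : ∀ (U : Ultrafilter M) (R : ℝ), (∀ᶠ a in (U : Filter M), ‖a‖ ≤ R) →
    ∃ x, WL ρ (U : Filter M) id x

/-- Functionals given by finitely many vectors. -/
def Normal (ρ : M →⋆ₐ[ℂ] (G →L[ℂ] G)) (t : M →ₗ[ℂ] ℂ) : Prop :=
  ∃ (J : Type) (_ : Fintype J) (ζ ζ' : J → G), ∀ y, t y = ∑ j, ⟪ζ' j, ρ y (ζ j)⟫_ℂ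

/-- Contractive matrices. -/
def Contr (ρ : M →⋆ₐ[ℂ] (G →L[ℂ] G)) {I J : Type} [Fintype I] [Fintype J] (X : I → J → M) : Prop :=
  ∀ ξ : J → G, ∑ i, ‖∑ j, ρ (X i j) (ξ j)‖ ^ 2 ≤ ∑ j, ‖ξ j‖ ^ 2

/-- Complete domination of a map by an element. -/
def Dom (ρ : M →⋆ₐ[ℂ] (G →L[ℂ] G)) (φ : M →ₗ[ℂ] M) (h : M) : Prop :=
  ∀ (I J : Type) [Fintype I] [Fintype J] (X : I → J → M), Contr ρ X → ∀ η : I → G,
    ∑ j, ‖∑ i, ρ (star (φ (X i j))) (η i)‖ ^ 2 ≤ ∑ i, vf ρ (η i) h

/-- Closed convex sets of families of maps, invariant under averaging over partitions. -/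
structure Inv (ρ : M →⋆ₐ[ℂ] (G →L[ℂ] G)) {E : Type u} (S : Set (E → M →ₗ[ℂ] M)) (c : E → ℝ) :
    Prop where
  ne : S.Nonempty
  c0 : ∀ e, 0 ≤ c e
  bd : ∀ T ∈ S, ∀ e a, ‖T e a‖ ≤ c e * ‖a‖
  lim : ∀ (U : Ultrafilter (E → M →ₗ[ℂ] M)) (T : E → M →ₗ[ℂ] M), S ∈ U →
    (∀ e a, WL ρ (U : Filter (E → M →ₗ[ℂ] M)) (fun T' => T' e a) (T e a)) → T ∈ S
  conv : Convex ℝ S
  part : ∀ (ι : Type) [Fintype ι] (p : ι → M), IsPart p → ∀ T ∈ S, (fun e => avg p (T e)) ∈ S

/-- A central projection covered by finitely many copies of an abelian projection. -/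
def AbCover (y : M) : Prop :=
  ∃ (p : M) (J : Type) (_ : Fintype J) (u : J → M), IsStarProjection p ∧
    (∀ a b, p * a * p * (p * b * p) = p * b * p * (p * a * p)) ∧
    (∀ i, u i * p = u i ∧ ‖u i‖ ≤ 1) ∧ ∑ i, u i * star (u i) = y

end VN

/-! ### Cochains as functions on lists -/

section Coch

variable {M : Type u} [CStarAlgebra M]

/-- All terms of the differential but the first one, with the opposite sign. -/
def dd : (List M → M) → M → List M → M
  | F, y, [] => F [] * y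
  | F, y, x :: l => F (y * x :: l) - dd (fun l' => F (y :: l')) x l

/-- The differential. -/
def dif (F : List M → M) (x : M) (l : List M) : M := x * F l - dd F x l

/-- Linearity in every position. -/
def Lin (F : List M → M) : Prop := ∀ l₁ l₂, IsLinearMap ℂ fun x => F (l₁ ++ x :: l₂)

/-- The product of the norms. -/
noncomputable def nrm (l : List M) : ℝ := (l.map norm).prod

/-- Bounded multilinear cocycles. -/
structure Coc (F : List M → M) (C : ℝ) : Prop where
  C0 : 0 ≤ C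
  lin : Lin F
  bd : ∀ l, ‖F l‖ ≤ C * nrm l
  coc : ∀ x l, dif F x l = 0

/-- The part of `F` under `z` is a coboundary with a controlled primitive. -/
def Cob (F : List M → M) (C : ℝ) (z : M) : Prop :=
  ∃ K : List M → M, Lin K ∧ (∀ l, ‖K l‖ ≤ C * (l.length + 2) * nrm l) ∧ (∀ l, z * K l = K l) ∧
    ∀ a l, z * F (a :: l) = dif K a l

/-- Families of maps which differ from `F` by the tail of a differential. -/
def Sol (F : List M → M) (z : M) (c : List M → ℝ) : Set (List M → M →ₗ[ℂ] M) :=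
  {T | (∀ a, Lin fun l => T l a) ∧ (∀ l a, ‖T l a‖ ≤ c l * ‖a‖) ∧ (∀ l a, z * T l a = T l a) ∧
    ∀ a b l, T l (b * a) = b * F (a :: l) + dd (fun l' => T l' b) a l}

/-- The prism operator. -/
def prism (α : M → M) (v : M) : (List M → M) → List M → M
  | F, [] => F [v]
  | F, x :: l => F (v :: x :: l) - prism α v (fun l' => F (α x :: l')) l

end Coch

end Vale.Agent.P082
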